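import Vale.Agent.P011.D4T.H553.TQ
import Vale.Agent.P011.D4I.Defs

/-!
Block D4I: the elements of the group which fix the idempotent `e₊` come from automorphisms of the
octonion algebra which fix `i`; the involutions among them.
-/

namespace Vale.Agent.P011.D4I

open Vale.Agent.P011.MPQ Vale.Agent.P011.D4 Vale.Agent.P011.D4.Oct Vale.Agent.P011.E6
open Vale.Agent.P011.D4T
open Vale.Agent.P011.D4T.TQ (mq_oct Jm_eq)

/-- The relations between `ρ`, `σ`, `ι` and `α` which are used in this file. -/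
structure EH {k E : Type} [Field k] [Field E] [Algebra k E] (ρ σ ι : E ≃ₐ[k] E) (α : E)
    (a : kˣ) : Prop where
  ρ3 : ∀ x, ρ (ρ (ρ x)) = x
  α2 : α * α = algebraMap k E a
  σα : σ α = -α
  fix : ∀ x, ρ x = x → σ x = x → ι x = x → ∃ t : k, algebraMap k E t = x

namespace TQ

section gt

variable {k L E : Type} [Field k] [Field L] [Field E] [Algebra k L] [Algebra k E] [Algebra L E]
  [IsScalarTower k L E] {ρ σ ι : E ≃ₐ[k] E} {α : E} {a b c : kˣ} {q : Lˣ}

theorem alpha_ne (H : EH ρ σ ι α a) : α ≠ 0 := by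
  intro h
  have h1 := H.α2
  rw [h, mul_zero] at h1
  exact a.ne_zero ((map_eq_zero_iff _ (algebraMap k E).injective).1 h1.symm)

theorem norm_mq [NeZero (2 : E)] (H : EH ρ σ ι α a) (t : E) :
    Oct.norm (⟨mq a b α t, 0⟩ : OctL E a b c) = t := by
  have h2 : (2 : E) ≠ 0 := NeZero.ne 2
  have hα := (alpha_ne H)
  have h := H.α2
  have h1 : Oct.norm (⟨mq a b α t, 0⟩ : OctL E a b c) = ((t + 1) / 2) ^ 2 -
      algebraMap k E a * ((t - 1) / (2 * α)) ^ 2 := by
    change nrd (mq a b α t) - algebraMap k E c * nrd (0 : Qt (up E a) (up E b)) = _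
    have e1 : nrd (mq a b α t : Qt (up E a) (up E b)) = ((t + 1) / 2) ^ 2 -
      algebraMap k E a * ((t - 1) / (2 * α)) ^ 2 := by
      change ((t + 1) / 2) ^ 2 - algebraMap k E a * ((t - 1) / (2 * α)) ^ 2 -
        algebraMap k E b * 0 ^ 2 + algebraMap k E a * algebraMap k E b * 0 ^ 2 = _
      ring
    have e2 : nrd (0 : Qt (up E a) (up E b)) = 0 := by simp [nrd]
    rw [e1, e2, mul_zero, sub_zero]
  rw [h1, ← h]
  field_simp
  ring

theorem omap_ep [NeZero (2 : E)] (H : EH ρ σ ι α a) :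
    omap σ (ep α : OctL E a b c) = 1 - ep α := by
  have h2 : (2 : E) ≠ 0 := NeZero.ne 2
  have hs : σ (1 / (2 * α)) = 0 - 1 / (2 * α) := by
    rw [map_div₀, map_mul, H.σα, map_one, map_ofNat, mul_neg, div_neg, zero_sub]
  have hs2 : σ (1 / 2) = 1 - 1 / 2 := by
    rw [map_div₀, map_one, map_ofNat]
    field_simp
    ring
  have hs0 : σ 0 = 0 - 0 := by rw [map_zero, sub_zero]
  apply ext8
  · exact hs2
  · exact hs
  · exact hs0
  · exact hs0
  · exact hs0
  · exact hs0
  · exact hs0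
  · exact hs0

theorem Jm_ep [NeZero (2 : E)] (H : EH ρ σ ι α a) :
    Jm ρ σ α q (ep α : OctL E a b c) = 1 - ep α := by
  have h2 : (2 : E) ≠ 0 := NeZero.ne 2
  have hα := (alpha_ne H)
  have hp : (ep α : OctL E a b c) * ep α = ep α := by
    have h := H.α2
    have e0 : ∀ x y z w : E, nrd (⟨x, y, z, w⟩ : Qt (up E a) (up E b)) = x ^ 2 -
        algebraMap k E a * y ^ 2 - algebraMap k E b * z ^ 2 +
          algebraMap k E a * algebraMap k E b * w ^ 2 := fun _ _ _ _ => rfl
    have e3 : nrd (0 : Qt (up E a) (up E b)) = 0 := by simp [nrd]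
    have e1 : Oct.norm (ep α : OctL E a b c) = 0 := by
      change nrd (⟨1 / 2, 1 / (2 * α), 0, 0⟩ : Qt (up E a) (up E b)) -
        algebraMap k E c * nrd (0 : Qt (up E a) (up E b)) = _
      rw [e0, e3, ← h]
      field_simp
      ring
    have e2 : bil (ep α : OctL E a b c) 1 = 1 := by
      have e4 : ep α + 1 = (⟨⟨1 / 2 + 1, 1 / (2 * α), 0, 0⟩, 0⟩ : OctL E a b c) := by
        apply ext8
        · rfl
        · exact add_zero _
        · exact add_zero _
        · exact add_zero _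
        · exact add_zero _
        · exact add_zero _
        · exact add_zero _
        · exact add_zero _
      rw [bil, e4, e1, Oct.norm_one]
      change nrd (⟨1 / 2 + 1, 1 / (2 * α), 0, 0⟩ : Qt (up E a) (up E b)) -
        algebraMap k E c * nrd (0 : Qt (up E a) (up E b)) - 0 - 1 = 1
      rw [e0, e3, ← h]
      field_simp
      ring
    rw [mul_self_eq, e1, e2, one_smul, zero_smul, sub_zero]
  rw [Jm_eq, omap_ep H, mq_oct _ hα, mq_oct _ hα]
  simp only [add_mul, mul_add, sub_mul, mul_sub, one_mul, mul_one, smul_mul_oct, mul_smul_oct, hp]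
  module

/-- Elements of the group which fix `e₊` fix `1`. -/
theorem gt_one [NeZero (2 : E)] (H : EH ρ σ ι α a)
    {g : OctL E a b c ≃ₗ[E] OctL E a b c} (hg : g ∈ GT ρ σ α a b c q)
    (he : g (ep α) = ep α) : g 1 = 1 := by
  have h1 : g (1 - ep α) = 1 - ep α := by
    rw [← Jm_ep (q := q) H, hg.2, he]
  have h2 : (1 : OctL E a b c) = (1 - ep α) + ep α := by abel
  conv_lhs => rw [h2, map_add, h1, he]
  exact h2.symm

theorem gt_omap [NeZero (2 : E)] (H : EH ρ σ ι α a)
    {g : OctL E a b c ≃ₗ[E] OctL E a b c} (hg : g ∈ GT ρ σ α a b c q)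
    (he : g (ep α) = ep α) (x : OctL E a b c) :
    g (omap ρ x) = omap ρ (g x) ∧ g (star x) = star (g x) := by
  have h1 := gt_one H hg he
  have hA : ∀ x, g (omap ρ (star x)) = omap ρ (star (g x)) := by
    intro x
    have h2 := hg.1 x 1
    rwa [tri, tri, h1, star_one, omap_one, omap_one, mul_one, mul_one] at h2
  have h3 : ∀ x : OctL E a b c, omap ρ (omap ρ (omap ρ x)) = x := Orb.omap_cube H.ρ3
  have hs : ∀ x, g (star x) = star (g x) := by
    intro x
    have h2 : ∀ x : OctL E a b c, omap ρ (star (omap ρ (star (omap ρ (star x))))) = star x := by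
      intro x
      simp only [omap_star, star_star, h3]
    rw [← h2, hA, hA, hA, h2]
  refine ⟨?_, hs x⟩
  have h4 := hA (star x)
  rwa [star_star, hs, star_star] at h4

theorem gt_mul [NeZero (2 : E)] (H : EH ρ σ ι α a)
    {g : OctL E a b c ≃ₗ[E] OctL E a b c} (hg : g ∈ GT ρ σ α a b c q)
    (he : g (ep α) = ep α) (x y : OctL E a b c) : g (x * y) = g x * g y := by
  have h3 : ∀ x : OctL E a b c, omap ρ (omap ρ (omap ρ x)) = x := Orb.omap_cube H.ρ3
  have h1 := hg.1 (star (omap ρ (omap ρ x))) (star (omap ρ y))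
  rw [tri, tri, star_star, star_star, h3, h3, (gt_omap H hg he _).2, (gt_omap H hg he _).2,
    star_star, star_star, (gt_omap H hg he _).1, (gt_omap H hg he _).1, (gt_omap H hg he _).1, h3,
    h3] at h1
  exact h1

theorem gt_sigma [NeZero (2 : E)] (H : EH ρ σ ι α a)
    {g : OctL E a b c ≃ₗ[E] OctL E a b c} (hg : g ∈ GT ρ σ α a b c q)
    (he : g (ep α) = ep α) (x : OctL E a b c) : g (omap σ x) = omap σ (g x) := by
  have hα := (alpha_ne H)
  have hm : ∀ t : E, g (⟨mq a b α t, 0⟩ : OctL E a b c) = ⟨mq a b α t, 0⟩ := by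
    intro t
    rw [mq_oct t hα, map_add, map_smul, map_sub, gt_one H hg he, he]
  have h1 := hg.2 x
  rw [Jm_eq, Jm_eq, gt_mul H hg he, gt_mul H hg he, hm, hm] at h1
  have hq : algebraMap L E (q : L) ≠ 0 := fun h =>
    q.ne_zero ((map_eq_zero_iff _ (algebraMap L E).injective).1 h)
  have hq' : algebraMap L E (q : L) * ρ (algebraMap L E (q : L)) ≠ 0 :=
    mul_ne_zero hq ((map_ne_zero_iff ρ ρ.injective).2 hq)
  have h2 : ∀ (m u v : OctL E a b c), Oct.norm m ≠ 0 → u * m = v * m → u = v := by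
    intro m u v hm' huv
    have h3 := congrArg (fun z => z * star m) huv
    simp only [mul_mul_star] at h3
    exact smul_right_injective _ hm' h3
  have h2' : ∀ (m u v : OctL E a b c), Oct.norm m ≠ 0 → m * u = m * v → u = v := by
    intro m u v hm' huv
    have h3 := congrArg (fun z => star m * z) huv
    simp only [star_mul_mul] at h3
    exact smul_right_injective _ hm' h3
  have h4 := h2 _ _ _ (by rw [norm_mq H]; exact hq') h1
  exact h2' _ _ _ (by rw [norm_mq H]; exact hq) h4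

theorem exists_oup (H : EH ρ σ ι α a) {x : OctL E a b c}
    (hσ : omap σ x = x) (hρ : omap ρ x = x) (hι : omap ι x = x) :
    ∃ y : Oct a b c, oup E y = x := by
  have h : ∀ t : E, σ t = t → ρ t = t → ι t = t → ∃ s : k, algebraMap k E s = t :=
    fun t h1 h2 h3 => H.fix t h2 h1 h3
  obtain ⟨y1, h1⟩ := h x.fst.re (congrArg (fun z : OctL E a b c => z.fst.re) hσ)
    (congrArg (fun z : OctL E a b c => z.fst.re) hρ)
    (congrArg (fun z : OctL E a b c => z.fst.re) hι)
  obtain ⟨y2, h2⟩ := h x.fst.imI (congrArg (fun z : OctL E a b c => z.fst.imI) hσ)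
    (congrArg (fun z : OctL E a b c => z.fst.imI) hρ)
    (congrArg (fun z : OctL E a b c => z.fst.imI) hι)
  obtain ⟨y3, h3⟩ := h x.fst.imJ (congrArg (fun z : OctL E a b c => z.fst.imJ) hσ)
    (congrArg (fun z : OctL E a b c => z.fst.imJ) hρ)
    (congrArg (fun z : OctL E a b c => z.fst.imJ) hι)
  obtain ⟨y4, h4⟩ := h x.fst.imK (congrArg (fun z : OctL E a b c => z.fst.imK) hσ)
    (congrArg (fun z : OctL E a b c => z.fst.imK) hρ)
    (congrArg (fun z : OctL E a b c => z.fst.imK) hι)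
  obtain ⟨y5, h5⟩ := h x.snd.re (congrArg (fun z : OctL E a b c => z.snd.re) hσ)
    (congrArg (fun z : OctL E a b c => z.snd.re) hρ)
    (congrArg (fun z : OctL E a b c => z.snd.re) hι)
  obtain ⟨y6, h6⟩ := h x.snd.imI (congrArg (fun z : OctL E a b c => z.snd.imI) hσ)
    (congrArg (fun z : OctL E a b c => z.snd.imI) hρ)
    (congrArg (fun z : OctL E a b c => z.snd.imI) hι)
  obtain ⟨y7, h7⟩ := h x.snd.imJ (congrArg (fun z : OctL E a b c => z.snd.imJ) hσ)
    (congrArg (fun z : OctL E a b c => z.snd.imJ) hρ)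
    (congrArg (fun z : OctL E a b c => z.snd.imJ) hι)
  obtain ⟨y8, h8⟩ := h x.snd.imK (congrArg (fun z : OctL E a b c => z.snd.imK) hσ)
    (congrArg (fun z : OctL E a b c => z.snd.imK) hρ)
    (congrArg (fun z : OctL E a b c => z.snd.imK) hι)
  exact ⟨⟨⟨y1, y2, y3, y4⟩, ⟨y5, y6, y7, y8⟩⟩, ext8 h1 h2 h3 h4 h5 h6 h7 h8⟩

theorem gt_iota [NeZero (2 : E)] (H : EH ρ σ ι α a)
    {g : OctL E a b c ≃ₗ[E] OctL E a b c} (hg : g ∈ GT ρ σ α a b c q)
    (hI : ∀ x, g (omap ι (star x)) = omap ι (star (g x)))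
    (he : g (ep α) = ep α) (x : OctL E a b c) : g (omap ι x) = omap ι (g x) := by
  have h := hI (star x)
  rwa [star_star, (gt_omap H hg he x).2, star_star] at h

/-- **The elements of the group which fix `e₊` come from automorphisms which fix `i`.** -/
theorem exists_autI [NeZero (2 : E)] (H : EH ρ σ ι α a)
    {g : OctL E a b c ≃ₗ[E] OctL E a b c} (hg : g ∈ GT ρ σ α a b c q)
    (hI : ∀ x, g (omap ι (star x)) = omap ι (star (g x)))
    (he : g (ep α) = ep α) :
    ∃ f : AutC a b c, f.1 gi = gi ∧ ∀ x : Oct a b c, g (oup E x) = oup E (f.1 x) := by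
  have hα := (alpha_ne H)
  have h2 : (2 : E) ≠ 0 := NeZero.ne 2
  have hgi : g⁻¹ ∈ GT ρ σ α a b c q := inv_mem hg
  have hei : g⁻¹ (ep α) = ep α := by
    apply g.injective
    rw [← LinearEquiv.mul_apply, mul_inv_cancel, he]
    rfl
  have hIi : ∀ x, g⁻¹ (omap ι (star x)) = omap ι (star (g⁻¹ x)) := by
    intro x
    have hgg : ∀ z, g (g⁻¹ z) = z := fun z => by
      rw [← LinearEquiv.mul_apply, mul_inv_cancel]; rfl
    apply g.injective
    rw [hI, hgg, hgg]
  have h1 : ∀ x : Oct a b c, ∃ y : Oct a b c, oup E y = g (oup E x) := fun x =>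
    exists_oup H (by rw [← gt_sigma H hg he, omap_oup]) (by rw [← (gt_omap H hg he _).1, omap_oup])
      (by rw [← gt_iota H hg hI he, omap_oup])
  have h1' : ∀ x : Oct a b c, ∃ y : Oct a b c, oup E y = g⁻¹ (oup E x) := fun x =>
    exists_oup H (by rw [← gt_sigma H hgi hei, omap_oup])
      (by rw [← (gt_omap H hgi hei _).1, omap_oup]) (by rw [← gt_iota H hgi hIi hei, omap_oup])
  choose f hf using h1
  choose f' hf' using h1'
  have hadd : ∀ x y, f (x + y) = f x + f y := by
    intro x y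
    apply Alb.oup_injective (K := E)
    rw [hf, oup_add, oup_add, map_add, hf, hf]
  have hsmul : ∀ (t : k) (x), f (t • x) = t • f x := by
    intro t x
    apply Alb.oup_injective (K := E)
    rw [hf, oup_smul, oup_smul, map_smul, hf]
  have hl : ∀ x, f' (f x) = x := by
    intro x
    apply Alb.oup_injective (K := E)
    rw [hf', hf, ← LinearEquiv.mul_apply, inv_mul_cancel]
    rfl
  have hr : ∀ x, f (f' x) = x := by
    intro x
    apply Alb.oup_injective (K := E)
    rw [hf, hf', ← LinearEquiv.mul_apply, mul_inv_cancel]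
    rfl
  refine ⟨⟨{ toFun := f, invFun := f', left_inv := hl, right_inv := hr, map_add' := hadd,
             map_smul' := hsmul }, fun x y => ?_⟩, ?_, fun x => (hf x).symm⟩
  · apply Alb.oup_injective (K := E)
    change oup E (f (x * y)) = oup E (f x * f y)
    rw [hf, oup_mul, oup_mul, gt_mul H hg he, hf, hf]
  · apply Alb.oup_injective (K := E)
    change oup E (f gi) = _
    have h3 : (oup E (gi : Oct a b c) : OctL E a b c) = (2 * α) • ep α - α • 1 := by
      rw [oup_gi]
      apply ext8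
      · change (0 : E) = (2 * α) * (1 / 2) - α * 1
        field_simp
        ring
      · change (1 : E) = (2 * α) * (1 / (2 * α)) - α * 0
        field_simp
        ring
      · change (0 : E) = (2 * α) * 0 - α * 0
        ring
      · change (0 : E) = (2 * α) * 0 - α * 0
        ring
      · change (0 : E) = (2 * α) * 0 - α * 0
        ring
      · change (0 : E) = (2 * α) * 0 - α * 0
        ring
      · change (0 : E) = (2 * α) * 0 - α * 0
        ring
      · change (0 : E) = (2 * α) * 0 - α * 0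
        ring
    rw [hf, h3, map_sub, map_smul, map_smul, he, gt_one H hg he]

/-- The automorphisms which fix `i` give elements of the group which fix `e₊`. -/
theorem autI_mem_GT [NeZero (2 : E)] (H : EH ρ σ ι α a) (f : AutC a b c)
    (hf : f.1 gi = gi) : H24.extE E f.1 ∈ GT ρ σ α a b c q ∧
      (∀ x, H24.extE E f.1 (omap ι (star x)) = omap ι (star (H24.extE E f.1 x))) ∧
      H24.extE E f.1 (ep α) = ep α := by
  have hα := alpha_ne H
  have h2 : (2 : E) ≠ 0 := NeZero.ne 2
  have hep : (ep α : OctL E a b c) = (1 / (2 * α)) • gi + (1 / 2 : E) • 1 := by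
    apply ext8
    · change (1 / 2 : E) = (1 / (2 * α)) * 0 + 1 / 2 * 1
      ring
    · change 1 / (2 * α) = (1 / (2 * α)) * 1 + 1 / 2 * 0
      ring
    · change (0 : E) = (1 / (2 * α)) * 0 + 1 / 2 * 0
      ring
    · change (0 : E) = (1 / (2 * α)) * 0 + 1 / 2 * 0
      ring
    · change (0 : E) = (1 / (2 * α)) * 0 + 1 / 2 * 0
      ring
    · change (0 : E) = (1 / (2 * α)) * 0 + 1 / 2 * 0
      ring
    · change (0 : E) = (1 / (2 * α)) * 0 + 1 / 2 * 0
      ring
    · change (0 : E) = (1 / (2 * α)) * 0 + 1 / 2 * 0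
      ring
  have hfo : ∀ x, H24.extE E f.1 (oup E x) = oup E (f.1 x) := H24.extE_oup f.1
  have h1 : H24.extE E f.1 (1 : OctL E a b c) = 1 := by
    rw [← oup_one, hfo, aut_one]
  have hg : H24.extE E f.1 (gi : OctL E a b c) = gi := by
    rw [← oup_gi, hfo, hf]
  have he : H24.extE E f.1 (ep α : OctL E a b c) = ep α := by
    rw [hep, map_add, map_smul, map_smul, h1, hg]
  refine ⟨⟨fun x y => H24.tri_extL ρ f.2 (aut_star f) x y, fun x => ?_⟩, fun x => ?_, he⟩
  rotate_left
  · have ho : H24.extE E f.1 (omap ι (star x)) = omap ι (H24.extE E f.1 (star x)) :=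
      (H24.omap_extL ι _ _).symm
    rw [ho]
    congr 1
    exact H24.extL_star (aut_star f) x
  have hm : ∀ t : E, H24.extE E f.1 (⟨mq a b α t, 0⟩ : OctL E a b c) = ⟨mq a b α t, 0⟩ := by
    intro t
    rw [mq_oct t hα, map_add, map_smul, map_sub, h1, he]
  have hmul : ∀ x y : OctL E a b c, H24.extE E f.1 (x * y) =
      H24.extE E f.1 x * H24.extE E f.1 y := fun x y => H24.extL_mul f.2 x y
  have ho : ∀ x : OctL E a b c, H24.extE E f.1 (omap σ x) = omap σ (H24.extE E f.1 x) :=
    fun x => (H24.omap_extL σ _ x).symm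
  rw [Jm_eq, Jm_eq, hmul, hmul, hm, hm, ho]

end gt

end TQ

variable {k L E : Type} [Field k] [Field L] [Field E] [Algebra k L] [Algebra k E] [Algebra L E]
  [IsScalarTower k L E] [NeZero (2 : k)] [NeZero (2 : E)] {ρ σ ι : E ≃ₐ[k] E}
  {α : E} {a b c : kˣ} {q : Lˣ}

/-- R: the involutions of the group which fix `e₊`. -/
theorem exists_tQ_of (H : EH ρ σ ι α a) (hdiv : Division a b c)
    {t : OctL E a b c ≃ₗ[E] OctL E a b c} (ht : t ∈ GT ρ σ α a b c q)
    (hI : ∀ x, t (omap ι (star x)) = omap ι (star (t x)))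
    (h1 : t ≠ 1) (h2 : t * t = 1) (he : t (ep α) = ep α) :
    ∃ (b' c' : kˣ) (j l : Oct a b c) (h : Trip a b' c' gi j l), t = tQ E h := by
  obtain ⟨f, hfi, hf⟩ := TQ.exists_autI H ht hI he
  have hf1 : f ≠ 1 := by
    intro h
    apply h1
    apply H24.equiv_unique
    intro x
    rw [hf, h]
    rfl
  have hf2 : f * f = 1 := by
    apply Subtype.ext
    apply LinearEquiv.ext
    intro x
    apply Alb.oup_injective (K := E)
    change oup E (f.1 (f.1 x)) = oup E x
    rw [← hf, ← hf, ← LinearEquiv.mul_apply, h2]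
    rfl
  obtain ⟨b', c', j, l, h, hj, hl⟩ := D4T.TQ.invol_trip hdiv hf1 hf2 hfi
  refine ⟨b', c', j, l, h, ?_⟩
  have key : ∀ y : OctL E a b' c', t (tripO E h y) = tripO E h (t0 E a b' c' y) := by
    intro y
    rw [tripO_apply, D4T.TQ.map_emb (TQ.gt_mul H ht he), hf, hf, hf, hfi, hj, hl, oup_neg,
      D4T.TQ.emb_neg_l, tripO_apply]
    rfl
  apply LinearEquiv.ext
  intro x
  obtain ⟨y, rfl⟩ := (tripO E h).surjective x
  rw [key]
  change _ = tripO E h (t0 E a b' c' ((tripO E h).symm (tripO E h y)))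
  rw [LinearEquiv.symm_apply_apply]

omit [Algebra k L] [IsScalarTower k L E] [NeZero (2 : k)] [NeZero (2 : E)] in
theorem mem_GT_of {g : OctL E a b c ≃ₗ[E] OctL E a b c} (hg : g ∈ GTI ρ σ ι α a b c q) :
    g ∈ GT ρ σ α a b c q := ⟨hg.1, hg.2.1⟩

omit [IsScalarTower k L E] [NeZero (2 : k)] [NeZero (2 : E)] in
theorem HyI.eh [IsScalarTower k L E] (H : HyI ρ σ ι α a b c q) : EH ρ σ ι α a :=
  ⟨H.ρ3, H.α2, H.σα, H.fixk⟩

/-- R: the involutions of `GTI` which fix `e₊`. -/
theorem exists_tQI (H : HyI ρ σ ι α a b c q) {t : OctL E a b c ≃ₗ[E] OctL E a b c}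
    (ht : t ∈ GTI ρ σ ι α a b c q) (h1 : t ≠ 1) (h2 : t * t = 1) (he : t (ep α) = ep α) :
    ∃ (b' c' : kˣ) (j l : Oct a b c) (h : Trip a b' c' gi j l), t = tQ E h :=
  exists_tQ_of H.eh H.hdiv (mem_GT_of ht) ht.2.2 h1 h2 he

/-- The elements of `GTI` which fix `e₊` come from automorphisms which fix `i`. -/
theorem exists_autII (H : HyI ρ σ ι α a b c q) {g : OctL E a b c ≃ₗ[E] OctL E a b c}
    (hg : g ∈ GTI ρ σ ι α a b c q) (he : g (ep α) = ep α) :
    ∃ f : AutC a b c, f.1 gi = gi ∧ ∀ x : Oct a b c, g (oup E x) = oup E (f.1 x) :=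
  TQ.exists_autI H.eh (mem_GT_of hg) hg.2.2 he

omit [NeZero (2 : k)] in
/-- The automorphisms which fix `i` give elements of `GTI` which fix `e₊`. -/
theorem autI_mem_GTI (H : HyI ρ σ ι α a b c q) (f : AutC a b c) (hf : f.1 gi = gi) :
    H24.extE E f.1 ∈ GTI ρ σ ι α a b c q ∧ H24.extE E f.1 (ep α) = ep α := by
  obtain ⟨h1, h2, h3⟩ := TQ.autI_mem_GT (q := q) H.eh f hf
  exact ⟨⟨h1.1, h1.2, h2⟩, h3⟩

end Vale.Agent.P011.D4I
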