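import Vale.Agent.P011.D4T.H67.KCf

/-!
The change of the quadratic field for a noncyclic cubic extension: the part with elements of the
big field.
-/

namespace Vale.Agent.P011.D4I.H553

open Vale.Agent.P011.D4T.H67

variable {k O : Type} [Field k] [Field O] [Algebra k O] {ρ σ τ ι : O ≃ₐ[k] O}

/-- The norm of an element `x` with `ι x = ρ² x` is fixed by `ι`. -/
theorem iota_N3 (h3 : ∀ x, ρ (ρ (ρ x)) = x) (hιρ : ∀ x, ι (ρ x) = ρ (ρ (ι x))) {x : O}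
    (hx : ι x = ρ (ρ x)) : ι (N3 ρ x) = N3 ρ x := by
  simp only [N3, map_mul, hιρ, hx, h3]
  ring

/-- The elements `v` and `s` of the change of field, with the automorphism `ι`. -/
theorem exists_vs (h3 : ∀ x, ρ (ρ (ρ x)) = x) (hσ : ∀ x, σ (σ x) = x) (hτ : ∀ x, τ (τ x) = x)
    (hσρ : ∀ x, σ (ρ x) = ρ (σ x)) (hτρ : ∀ x, τ (ρ x) = ρ (τ x)) (hστ : ∀ x, σ (τ x) = τ (σ x))
    (h2 : (2 : O) ≠ 0) {α : O} (hα0 : α ≠ 0) (hσα : σ α = -α) (hρα : ρ α = α)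
    (hιρ : ∀ x, ι (ρ x) = ρ (ρ (ι x))) (hισ : ∀ x, ι (σ x) = σ (ι x))
    (hιτ : ∀ x, ι (τ x) = τ (ι x)) (hια : ι α = α)
    {q lam : O} (hq : N3 ρ q = 1) (hτq : τ q = q) (hlam : lam * σ lam = q)
    (hιl : ι lam = ρ (ρ lam)) :
    ∃ v s : O, v ≠ 0 ∧ s ≠ 0 ∧ τ lam * σ v = lam * v ∧ N3 ρ (v * τ v) = 1 ∧ σ (v * τ v) = v * τ v ∧
      ρ s = s ∧ σ s = N3 ρ lam * s ∧ τ s * N3 ρ v = s ∧ ι v = ρ (ρ v) ∧ ι s = s := by
  have hq0 : q ≠ 0 := by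
    rintro rfl
    simp [N3] at hq
  have hl0 : lam ≠ 0 := by
    rintro rfl
    exact hq0 (by rw [← hlam, zero_mul])
  have hτl0 : τ lam ≠ 0 := (map_ne_zero τ).mpr hl0
  have hσl0 : σ lam ≠ 0 := (map_ne_zero σ).mpr hl0
  -- the element `v0`
  obtain ⟨r, hr⟩ : ∃ r, r = τ lam * lam⁻¹ := ⟨_, rfl⟩
  have hr0 : r ≠ 0 := by
    rw [hr]
    exact mul_ne_zero hτl0 (inv_ne_zero hl0)
  have hrr : r * σ r = 1 := by
    have h1 : τ lam * σ (τ lam) = q := by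
      rw [hστ, ← map_mul, hlam, hτq]
    rw [hr, map_mul, map_inv₀]
    field_simp
    rw [h1, hlam]
  have hrτ : r * τ r = 1 := by
    rw [hr, map_mul, map_inv₀, hτ]
    field_simp
  obtain ⟨x, hx1, hv0, hv⟩ := h90 hσ h2 hσα hα0 hrr
  have hιx : ι x = ρ (ρ x) := by
    rcases hx1 with rfl | rfl
    · rw [map_one, map_one, map_one]
    · rw [hια, hρα, hρα]
  have hιr : ι r = ρ (ρ r) := by
    rw [hr, map_mul, map_inv₀, hιτ, hιl, hτρ, hτρ, map_mul, map_mul, map_inv₀, map_inv₀]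
  obtain ⟨v0, hv0d⟩ : ∃ v0, v0 = x + r * σ x := ⟨_, rfl⟩
  have hιv0 : ι v0 = ρ (ρ v0) := by
    rw [hv0d, map_add, map_mul, hιr, hισ, hιx, hσρ, hσρ, map_add, map_add, map_mul, map_mul]
  rw [← hv0d] at hv0 hv
  -- `r * σ v0 = v0`
  have hw : σ (v0 * τ v0) = v0 * τ v0 := by
    have e1 : τ r * σ (τ v0) = τ v0 := by
      rw [hστ, ← map_mul, hv]
    calc σ (v0 * τ v0) = (r * τ r) * (σ v0 * σ (τ v0)) := by rw [hrτ, one_mul, map_mul]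
      _ = (r * σ v0) * (τ r * σ (τ v0)) := by ring
      _ = v0 * τ v0 := by rw [hv, e1]
  -- the element `β`
  obtain ⟨Λ, hΛ⟩ : ∃ Λ, Λ = N3 ρ lam := ⟨_, rfl⟩
  have hΛ0 : Λ ≠ 0 := by
    rw [hΛ]
    exact N3_ne hl0
  have hρΛ : ρ Λ = Λ := by
    rw [hΛ]
    exact rho_N3 h3 _
  have hΛΛ : Λ * σ Λ = 1 := by
    rw [hΛ, map_N3 hσρ, ← N3_mul, hlam, hq]
  obtain ⟨y, hy, hβ0, hβ⟩ := h90 hσ h2 hσα hα0 hΛΛ
  obtain ⟨β, hβd⟩ : ∃ β, β = y + Λ * σ y := ⟨_, rfl⟩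
  rw [← hβd] at hβ0 hβ
  have hρy : ρ y = y := by
    rcases hy with rfl | rfl
    · exact map_one ρ
    · exact hρα
  have hρβ : ρ β = β := by
    rw [hβd, map_add, map_mul, hρΛ, ← hσρ, hρy]
  have hιΛ : ι Λ = Λ := by
    rw [hΛ]
    exact iota_N3 h3 hιρ hιl
  have hιy : ι y = y := by
    rcases hy with rfl | rfl
    · exact map_one ι
    · exact hια
  have hιβ : ι β = β := by
    rw [hβd, map_add, map_mul, hιΛ, hισ, hιy]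
  -- the element `κ`
  obtain ⟨V, hV⟩ : ∃ V, V = N3 ρ v0 := ⟨_, rfl⟩
  have hV0 : V ≠ 0 := by
    rw [hV]
    exact N3_ne hv0
  have hρV : ρ V = V := by
    rw [hV]
    exact rho_N3 h3 _
  have hιV : ι V = V := by
    rw [hV]
    exact iota_N3 h3 hιρ hιv0
  have hτβ0 : τ β ≠ 0 := (map_ne_zero τ).mpr hβ0
  have hτV0 : τ V ≠ 0 := (map_ne_zero τ).mpr hV0
  have hτΛ0 : τ Λ ≠ 0 := (map_ne_zero τ).mpr hΛ0
  have e0 : τ lam * σ v0 = lam * v0 := by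
    have h := hv
    rw [hr] at h
    field_simp at h
    linear_combination h
  -- `τ Λ * σ V = Λ * V`
  have hσV : τ Λ * σ V = Λ * V := by
    rw [hV, hΛ, map_N3 hσρ, map_N3 hτρ, ← N3_mul, ← N3_mul, e0]
  have hσβ : σ β = β * Λ⁻¹ := by
    rw [eq_mul_inv_iff_mul_eq₀ hΛ0, mul_comm]
    exact hβ
  have hστβ : σ (τ β) = τ β * (τ Λ)⁻¹ := by
    rw [hστ, hσβ, map_mul, map_inv₀]
  have hσV' : σ V = Λ * V * (τ Λ)⁻¹ := by
    rw [← hσV]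
    field_simp
  obtain ⟨κ, hκ⟩ : ∃ κ, κ = V * β * (τ β)⁻¹ := ⟨_, rfl⟩
  have hκ0 : κ ≠ 0 := by
    rw [hκ]
    exact mul_ne_zero (mul_ne_zero hV0 hβ0) (inv_ne_zero hτβ0)
  have hτκ0 : τ κ ≠ 0 := (map_ne_zero τ).mpr hκ0
  have hσκ : σ κ = κ := by
    rw [hκ, map_mul, map_mul, map_inv₀, hσβ, hστβ, hσV']
    field_simp
  have hρκ : ρ κ = κ := by
    rw [hκ, map_mul, map_mul, map_inv₀, hρβ, hρV, ← hτρ, hρβ]
  have hικ : ι κ = κ := by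
    rw [hκ, map_mul, map_mul, map_inv₀, hιV, hιβ, hιτ, hιβ]
  have hκκ : κ * τ κ = V * τ V := by
    rw [hκ, map_mul, map_mul, map_inv₀, hτ]
    field_simp
  -- the element `v`
  obtain ⟨w, hwd⟩ : ∃ w, w = v0 * τ v0 := ⟨_, rfl⟩
  rw [← hwd] at hw
  have hτv0 : τ v0 ≠ 0 := (map_ne_zero τ).mpr hv0
  have hw0 : w ≠ 0 := by
    rw [hwd]
    exact mul_ne_zero hv0 hτv0
  have hτw : τ w = w := by
    rw [hwd, map_mul, hτ, mul_comm]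
  have hNw : N3 ρ w = κ * τ κ := by
    rw [hκκ, hwd, N3_mul, hV, map_N3 hτρ]
  obtain ⟨v, hvd⟩ : ∃ v, v = v0 * κ * (w ^ 2)⁻¹ := ⟨_, rfl⟩
  have hv00 : v ≠ 0 := by
    rw [hvd]
    exact mul_ne_zero (mul_ne_zero hv0 hκ0) (inv_ne_zero (pow_ne_zero _ hw0))
  have hιw : ι w = ρ (ρ w) := by
    rw [hwd, map_mul, hιτ, hιv0, hτρ, hτρ, map_mul, map_mul]
  have hNv : N3 ρ v = V * κ ^ 3 * ((κ * τ κ) ^ 2)⁻¹ := by
    rw [hvd, N3_mul, N3_mul, N3_inv, sq, N3_mul, hNw, N3_fix hρκ, ← hV, sq]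
  refine ⟨v, κ ^ 2 * β⁻¹, hv00, mul_ne_zero (pow_ne_zero _ hκ0) (inv_ne_zero hβ0), ?_, ?_, ?_, ?_,
    ?_, ?_, ?_, ?_⟩
  · rw [hvd, map_mul, map_mul, map_inv₀, map_pow, hw, hσκ]
    linear_combination κ * (w ^ 2)⁻¹ * e0
  · rw [N3_mul, ← map_N3 hτρ, hNv, map_mul, map_mul, map_inv₀, map_pow, map_pow, map_mul, hτ]
    have h5 : V * τ V = κ * τ κ := hκκ.symm
    have h6 : V * κ ^ 3 * ((κ * τ κ) ^ 2)⁻¹ * (τ V * τ κ ^ 3 * ((τ κ * κ) ^ 2)⁻¹) =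
        (V * τ V) * (κ * τ κ) ^ 3 * ((κ * τ κ) ^ 4)⁻¹ := by
      field_simp
    rw [h6, h5]
    field_simp
  · have h5 : v * τ v = (κ * τ κ) * w * (w ^ 4)⁻¹ := by
      rw [hvd, map_mul, map_mul, map_inv₀, map_pow, hτw]
      field_simp
      rw [hwd]
    have h6 : σ (τ κ) = τ κ := by rw [hστ, hσκ]
    rw [h5, map_mul, map_mul, map_mul, map_inv₀, map_pow, hw, hσκ, h6]
  · rw [map_mul, map_inv₀, map_pow, hρκ, hρβ]
  · rw [map_mul, map_inv₀, map_pow, hσκ, hσβ, ← hΛ]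
    field_simp
  · rw [map_mul, map_inv₀, map_pow, hNv]
    have h5 : V * β = κ * τ β := by
      rw [hκ]
      field_simp
    field_simp
    linear_combination h5
  · rw [hvd, map_mul, map_mul, map_inv₀, map_pow, hιv0, hικ, hιw, map_mul, map_mul, map_mul,
      map_mul, map_inv₀, map_inv₀, map_pow, map_pow, hρκ, hρκ]
  · rw [map_mul, map_inv₀, map_pow, hικ, hιβ]

end Vale.Agent.P011.D4I.H553
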