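import Vale.Agent.P011.D4T.H67.KCb
import Vale.Agent.P011.D4I.H553.KCa

/-!
The change of the quadratic field for a noncyclic cubic extension: the isomorphism of cyclic
compositions over the big field.
-/

open Vale.Agent.P011.MPQ Vale.Agent.P011.D4 Vale.Agent.P011.D4.Oct Vale.Agent.P011.E6
  Vale.Agent.P011.D4.H24

namespace Vale.Agent.P011.D4I.H553

open Vale.Agent.P011.D4T Vale.Agent.P011.D4T.H67

section uf

variable {k O : Type} [Field k] [Field O] [Algebra k O] {ρ σ τ ι : O ≃ₐ[k] O}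
  {a b c a1 b1 c1 : kˣ} {I J X : Qt (up O a) (up O b)} {t : O}

/-- Compatibility with the involution `x ↦ ι(x̄)`. -/
theorem uF_iota (h3 : ∀ x, ρ (ρ (ρ x)) = x) (hιρ : ∀ x, ι (ρ x) = ρ (ρ (ι x)))
    (h : HP (up O a1) (up O b1) I J) (hI : qmap ι I = I) (hJ : qmap ι J = J)
    (hX : qmap ι X = qmap ρ (qmap ρ X)) (ht : ι t = t) (x : OctL O a1 b1 c1) :
    omap ι (star (uF ρ c I J X t x)) = uF ρ c I J X t (omap ι (star x)) := by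
  have hqc : ∀ x : Qt (up O a) (up O b), qmap ρ (qmap ρ (qmap ρ x)) = x := fun x => by
    ext <;> simp [h3]
  have hqι : ∀ x : Qt (up O a) (up O b), qmap ι (qmap ρ x) = qmap ρ (qmap ρ (qmap ι x)) :=
    fun x => by ext <;> simp [hιρ]
  have e1 : qmap ι (qmap ρ X) = qmap ρ X := by rw [hqι, hX, hqc]
  have e2 : qmap ι (qmap ρ (qmap ρ X)) = X := by rw [hqι, e1, hqc]
  apply Oct.ext
  · change qmap ι (star (X * pq I J x.fst * star (qmap ρ (qmap ρ X)))) =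
      X * pq I J (qmap ι (star x.fst)) * star (qmap ρ (qmap ρ X))
    rw [star_mul, star_mul, star_star, qmap_mul, qmap_mul, e2, qmap_star ι X, hX, ← h.pq_star,
      qmap_pq ι hI hJ, mul_assoc]
  · change qmap ι (-(t • (pq I J x.snd * star (qmap ρ X)))) =
      t • (pq I J (qmap ι (-x.snd)) * star (qmap ρ X))
    rw [qmap_neg, qmap_smul, qmap_mul, qmap_star, e1, qmap_pq ι hI hJ, ht, qmap_neg, pq_neg,
      neg_mul, smul_neg]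

/-- **The change of the quadratic field**, with the automorphism `ι`. -/
theorem kcb_iota [NeZero (2 : O)] (h3 : ∀ x, ρ (ρ (ρ x)) = x) (hσ : ∀ x, σ (σ x) = x)
    (hτ : ∀ x, τ (τ x) = x) (hσρ : ∀ x, σ (ρ x) = ρ (σ x)) (hτρ : ∀ x, τ (ρ x) = ρ (τ x))
    (hστ : ∀ x, σ (τ x) = τ (σ x))
    (hιρ : ∀ x, ι (ρ x) = ρ (ρ (ι x))) (hισ : ∀ x, ι (σ x) = σ (ι x))
    (hιτ : ∀ x, ι (τ x) = τ (ι x))
    (hfix : ∀ x, ρ x = x → σ x = x → τ x = x → ι x = x → ∃ t : k, algebraMap k O t = x)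
    {α : O} (hσα : σ α = -α) (hρα : ρ α = α) (hτα : τ α = α) (hια : ι α = α)
    (hα2 : α * α = algebraMap k O a)
    {β : O} (hσβ : σ β = β) (hτβ : τ β = -β) (hρβ : ρ β = β) (hιβ : ι β = β)
    (hβ2 : β * β = algebraMap k O a1)
    {q : O} (hq : N3 ρ q = 1) (hσq : σ q = q) (hτq : τ q = q) (hιq : ι q = ρ (ρ q))
    {i1 j1 : Qt a b} (hi0 : i1.re = 0) (hj0 : j1.re = 0) (hi : nrd i1 = -a1) (hj : nrd j1 = -b1)
    (hij : j1 * i1 = -(i1 * j1))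
    {p : Qt (up O a) (up O b)} (hp0 : p.re = 0) (hp : nrd p = -(β * β)) (hτp : qmap τ p = p)
    (hσp : mq a b α q * qmap σ p = p * mq a b α q) (hιp : qmap ι p = qmap ρ (qmap ρ p))
    (c : kˣ) :
    ∃ (c1 : kˣ) (q1 : O) (u : OctL O a1 b1 c1 ≃ₗ[O] OctL O a b c) (e f s t : O),
      e ≠ 0 ∧ f ≠ 0 ∧ s ≠ 0 ∧ t ≠ 0 ∧ N3 ρ q1 = 1 ∧ σ q1 = q1 ∧ τ q1 = q1 ∧ ι q1 = ρ (ρ q1) ∧
      (∀ x y, tri ρ (u x) (u y) = e • u (tri ρ x y)) ∧
      (∀ x y, bil (u x) (u y) = f * bil x y) ∧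
      (∀ x, Jq σ α q (ρ q) (u x) = s • u (omap σ x)) ∧
      (∀ x, omap τ (u x) = t • u (Jq τ β q1 (ρ q1) x)) ∧
      (∀ x, u (t0 O a1 b1 c1 x) = t0 O a b c (u x)) ∧
      (∀ (r r' r0 r0' g : O) x,
        u (zFun ρ (r • 1 + r' • ⟨0, 1, 0, 0⟩) (r0 • 1 + r0' • ⟨0, 1, 0, 0⟩) g x) =
          zFun ρ (r • 1 + r' • p) (r0 • 1 + r0' • qup O i1) g (u x)) ∧
      (∀ x, omap ι (star (u x)) = u (omap ι (star x))) := by
  have h2 : (2 : O) ≠ 0 := NeZero.ne 2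
  have hα0 : α ≠ 0 := by
    intro h0
    rw [h0, mul_zero] at hα2
    exact (map_ne_zero (algebraMap k O)).2 a.ne_zero hα2.symm
  have hβ0 : β ≠ 0 := by
    intro h0
    rw [h0, mul_zero] at hβ2
    exact (map_ne_zero (algebraMap k O)).2 a1.ne_zero hβ2.symm
  have hi' : algebraMap k O (nrd i1) = -(β * β) := by
    rw [hi, map_neg, hβ2]
  have hj' : nrd j1 ≠ 0 := by
    rw [hj]
    exact neg_ne_zero.2 b1.ne_zero
  obtain ⟨X, lam, v, s, hX0, hv, hs, hlam, hpX, hσX, hτX, hNv, hσv, hρs, hσs, hτs, hlq, hιX,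
      hιlam, hιv, hιs⟩ :=
    kca (ι := ι) h3 hσ hτ hσρ hτρ hστ hιρ hισ hιτ h2 hα0 hσα hρα hτα hια hα2 hβ0 hσβ hτβ hρβ hιβ
      hq hσq hτq hιq hi0 hi' hj' hij hp0 hp hτp hσp hιp
  have hII : i1 * i1 = (a1 : k) • (1 : Qt a b) := by
    have h := mul_star_self' i1
    rw [star_of_re hi0, mul_neg, hi, neg_smul, neg_inj] at h
    exact h
  have hJJ : j1 * j1 = (b1 : k) • (1 : Qt a b) := by
    have h := mul_star_self' j1
    rw [star_of_re hj0, mul_neg, hj, neg_smul, neg_inj] at h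
    exact h
  have hP : HP (up O a1) (up O b1) (qup O i1) (qup O j1) := by
    refine ⟨?_, ?_, ?_, ?_, ?_⟩
    · change algebraMap k O i1.re = 0
      rw [hi0, map_zero]
    · change algebraMap k O j1.re = 0
      rw [hj0, map_zero]
    · rw [← qup_mul, hII, qup_smul, qup_one]
      rfl
    · rw [← qup_mul, hJJ, qup_smul, qup_one]
      rfl
    · rw [← qup_mul, hij, ← qup_mul]
      exact qup_neg _
  have hIm : ∀ g : O ≃ₐ[k] O, qmap g (qup O i1) = qup O i1 := fun g => by rw [qmap_qup]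
  have hJm : ∀ g : O ≃ₐ[k] O, qmap g (qup O j1) = qup O j1 := fun g => by rw [qmap_qup]
  have hH : HJ a ρ σ α q (ρ q) (ρ (ρ q)) :=
    { al := hα2
      ra := hρα
      sa := hσα
      r0 := rfl
      r1 := rfl
      r2 := h3 q
      s0 := hσq
      N := hq
      rs := fun x => (hσρ x).symm
      r3 := h3
      s2 := hσ }
  have hH1 : HJ a1 ρ τ β (v * τ v) (ρ (v * τ v)) (ρ (ρ (v * τ v))) :=
    { al := hβ2
      ra := hρβ
      sa := hτβ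
      r0 := rfl
      r1 := rfl
      r2 := h3 _
      s0 := by rw [map_mul, hτ, mul_comm]
      N := hNv
      rs := fun x => (hτρ x).symm
      r3 := h3
      s2 := hτ }
  have hq0 : q ≠ 0 := hH.q_ne
  have hnI : nrd (qup O i1 : Qt (up O a) (up O b)) = -(β * β) := by
    rw [← hi']
    exact nrd_qup i1
  -- the norm of `X`
  obtain ⟨ξ, hξ⟩ : ∃ ξ, ξ = nrd X := ⟨_, rfl⟩
  have hξ0 : ξ ≠ 0 := by rwa [hξ]
  have hσξ : q * σ ξ = lam ^ 2 * ξ := by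
    have h := congrArg nrd hσX
    rwa [nrd_mul_q, nrd_mq hα2, nrd_qmap, nrd_smul_q, ← hξ] at h
  have hτξ : v * τ ξ = ξ * τ v := by
    have h := congrArg nrd hτX
    rw [nrd_mul_q, nrd_el h2 hβ0 hP.I0 hnI, nrd_qmap, ← hξ] at h
    rw [h]
    field_simp
  have hρξ0 : ρ ξ ≠ 0 := (map_ne_zero ρ).2 hξ0
  have hρρξ0 : ρ (ρ ξ) ≠ 0 := (map_ne_zero ρ).2 hρξ0
  have hρv0 : ρ v ≠ 0 := (map_ne_zero ρ).2 hv
  have hρρv0 : ρ (ρ v) ≠ 0 := (map_ne_zero ρ).2 hρv0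
  have hτv0 : τ v ≠ 0 := (map_ne_zero τ).2 hv
  have hρl0 : ρ lam ≠ 0 := (map_ne_zero ρ).2 hlam
  have hρρl0 : ρ (ρ lam) ≠ 0 := (map_ne_zero ρ).2 hρl0
  have hρσξ : ρ (ρ q) * ρ (ρ (σ ξ)) = ρ (ρ lam) ^ 2 * ρ (ρ ξ) := by
    rw [← map_mul, ← map_mul, hσξ, map_mul, map_mul, map_pow, map_pow]
  have hρτξ : ρ (ρ v) * ρ (ρ (τ ξ)) = ρ (ρ ξ) * ρ (ρ (τ v)) := by
    rw [← map_mul, ← map_mul, hτξ, map_mul, map_mul]
  have hιξ : ι ξ = ρ (ρ ξ) := by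
    rw [hξ]
    exact iota_nrd hιX
  obtain ⟨t, ht⟩ : ∃ t, t = ξ * ρ (ρ ξ) * s⁻¹ := ⟨_, rfl⟩
  have hιt : ι t = t := by
    rw [ht, map_mul, map_mul, map_inv₀, hιs, hιρ, hιρ, hιξ, h3, h3]
    ring
  have ht0 : t ≠ 0 := by
    rw [ht]
    exact mul_ne_zero (mul_ne_zero hξ0 hρρξ0) (inv_ne_zero hs)
  have hρt : ρ t = ρ ξ * ξ * s⁻¹ := by
    rw [ht, map_mul, map_mul, map_inv₀, h3, hρs]
  have hρρt : ρ (ρ t) = ρ (ρ ξ) * ρ ξ * s⁻¹ := by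
    rw [hρt, map_mul, map_mul, map_inv₀, hρs]
  -- the element `c₁`
  obtain ⟨ζ, hζ⟩ : ∃ ζ : k, algebraMap k O ζ = N3 ρ ξ * (s ^ 2)⁻¹ := by
    apply hfix
    · rw [map_mul, rho_N3 h3, map_inv₀, map_pow, hρs]
    · have e1 : N3 ρ (σ ξ) = N3 ρ lam ^ 2 * N3 ρ ξ := by
        have h := congrArg (N3 ρ) hσξ
        rwa [N3_mul, hq, one_mul, N3_mul, sq, N3_mul, ← sq] at h
      have hNl : N3 ρ lam ≠ 0 := N3_ne hlam
      rw [map_mul, map_N3 hσρ, e1, map_inv₀, map_pow, hσs]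
      field_simp
    · have e1 : N3 ρ v * N3 ρ (τ ξ) = N3 ρ ξ * N3 ρ (τ v) := by
        rw [← N3_mul, hτξ, N3_mul]
      have hNv0 : N3 ρ v ≠ 0 := N3_ne hv
      rw [N3_mul] at hNv
      have e2 : N3 ρ (τ ξ) * N3 ρ v ^ 2 = N3 ρ ξ := by
        linear_combination N3 ρ v * e1 + N3 ρ ξ * hNv
      have hτs0 : τ s ≠ 0 := (map_ne_zero τ).2 hs
      rw [map_mul, map_N3 hτρ, map_inv₀, map_pow, ← e2]
      nth_rewrite 2 [← hτs]
      field_simp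
    · rw [map_mul, iota_N3 h3 hιρ hιξ, map_inv₀, map_pow, hιs]
  have hζ0 : ζ ≠ 0 := by
    rintro rfl
    rw [map_zero] at hζ
    exact mul_ne_zero (N3_ne hξ0) (inv_ne_zero (pow_ne_zero _ hs)) hζ.symm
  have hc1 : ((up O (Units.mk0 ζ hζ0 * c) : Oˣ) : O) =
      N3 ρ ξ * (s ^ 2)⁻¹ * ((up O c : Oˣ) : O) := by
    rw [← hζ]
    change algebraMap k O (ζ * c) = _
    rw [map_mul]
    rfl
  have hA : ((up O c : Oˣ) : O) * (ρ (ρ t) * ρ t) =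
      ((up O (Units.mk0 ζ hζ0 * c) : Oˣ) : O) * ρ (nrd X) := by
    rw [hc1, hρρt, hρt, ← hξ, N3]
    field_simp
  have hB : ρ (ρ t) * nrd X = ρ (nrd X) * t := by
    rw [hρρt, ← hξ, ht]
    ring
  have hC : ρ t * ρ (ρ (nrd X)) = ρ (nrd X) * t := by
    rw [hρt, ← hξ, ht]
    ring
  have hN : ((up O c : Oˣ) : O) * (t ^ 2 * ρ (nrd X)) =
      ((up O (Units.mk0 ζ hζ0 * c) : Oˣ) : O) * (nrd X * ρ (ρ (nrd X))) := by
    rw [hc1, ht, ← hξ, N3]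
    field_simp
  refine ⟨Units.mk0 ζ hζ0 * c, v * τ v, uE ρ c _ hP hX0 ht0, ρ (nrd X), nrd X * ρ (ρ (nrd X)),
    (ρ (ρ q))⁻¹ * (lam * ρ (ρ lam)), v⁻¹ * ρ (ρ v⁻¹) * ρ (ρ (v * τ v)), ?_, ?_, ?_, ?_, hNv, hσv,
    hH1.s0, by rw [map_mul, hιτ, hιv, hτρ, hτρ, map_mul, map_mul], ?_, ?_, ?_, ?_, ?_, ?_,
    fun x => uF_iota h3 hιρ hP (hIm ι) (hJm ι) hιX hιt x⟩
  · rw [← hξ]
    exact hρξ0
  · rw [← hξ]
    exact mul_ne_zero hξ0 hρρξ0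
  · exact mul_ne_zero (inv_ne_zero hH.q2_ne) (mul_ne_zero hlam hρρl0)
  · exact mul_ne_zero (mul_ne_zero (inv_ne_zero hv)
      ((map_ne_zero ρ).2 ((map_ne_zero ρ).2 (inv_ne_zero hv)))) hH1.q2_ne
  · intro x y
    exact uF_tri h3 hP (hIm ρ) (hJm ρ) hA hB hC x y
  · intro x y
    exact bil_uF hP hN x y
  · intro x
    have hT : ρ (ρ q) * (σ t * q * ρ lam) = lam * ρ (ρ lam) * t := by
      have hσt : σ t = σ ξ * ρ (ρ (σ ξ)) * (N3 ρ lam * s)⁻¹ := by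
        rw [ht, map_mul, map_mul, map_inv₀, hσs, hσρ, hσρ]
      rw [hσt, ht, N3]
      have e : ρ (ρ q) * (σ ξ * ρ (ρ (σ ξ)) * (lam * ρ lam * ρ (ρ lam) * s)⁻¹ * q * ρ lam) =
          (q * σ ξ) * (ρ (ρ q) * ρ (ρ (σ ξ))) * (lam * ρ lam * ρ (ρ lam) * s)⁻¹ * ρ lam := by
        ring
      rw [e, hσξ, hρσξ]
      field_simp
    have h := uF_Jq (c := c) (c1 := Units.mk0 ζ hζ0 * c) hH (hIm σ) (hJm σ) hσX hT x
    change Jq σ α q (ρ q) (uF ρ c (qup O i1) (qup O j1) X t x) =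
      ((ρ (ρ q))⁻¹ * (lam * ρ (ρ lam))) • uF ρ c (qup O i1) (qup O j1) X t (omap σ x)
    rw [mul_smul, ← h, smul_smul, inv_mul_cancel₀ hH.q2_ne, one_smul]
  · intro x
    have hT : τ t * ρ v⁻¹ = v⁻¹ * ρ (ρ v⁻¹) * ρ (ρ (v * τ v)) * t * (v * τ v) := by
      have hτt : τ t = τ ξ * ρ (ρ (τ ξ)) * (τ s)⁻¹ := by
        rw [ht, map_mul, map_mul, map_inv₀, hτρ, hτρ]
      have hτs0 : τ s ≠ 0 := (map_ne_zero τ).2 hs
      have e1 : τ ξ = ξ * τ v * v⁻¹ := by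
        rw [← hτξ]
        field_simp
      have e2 : ρ (ρ (τ ξ)) = ρ (ρ ξ) * ρ (ρ (τ v)) * (ρ (ρ v))⁻¹ := by
        rw [← hρτξ]
        field_simp
      have e3 : s⁻¹ = (τ s)⁻¹ * (N3 ρ v)⁻¹ := by
        rw [← mul_inv, hτs]
      rw [hτt, e2, e1, ht, e3, N3, map_inv₀, map_inv₀, map_mul, map_mul]
      field_simp
    exact uF_omap hH1 hP (hIm ρ) (hJm ρ) (hIm τ) (hJm τ) hv hτX rfl hT x
  · intro x
    exact uF_t0 x
  · intro r r' r0 r0' g x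
    refine uF_zFun hP (hIm ρ) (hJm ρ) ?_ ?_ g x
    · rw [pq_add, pq_smul, pq_smul, pq_one, pq_gi, add_mul, mul_add, smul_mul_assoc,
        smul_mul_assoc, hpX, one_mul, mul_smul_comm, mul_smul_comm, mul_one]
    · rw [pq_add, pq_smul, pq_smul, pq_one, pq_gi]

end uf

end Vale.Agent.P011.D4I.H553
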