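import Vale.Agent.P011.D4I.H691.Na

/-!
Block D4I: transport of the finite residual along an isomorphism of the groups of similitudes which
keeps the multipliers.
-/

namespace Vale.Agent.P011.D4I

open Vale.Agent.P011.MPQ Vale.Agent.P011.D4 Vale.Agent.P011.D4.Oct Vale.Agent.P011.E6
open Vale.Agent.P011.D4T

section tran

variable {k L E E1 : Type} [Field k] [Field L] [Field E] [Field E1] [Algebra k L] [Algebra k E]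
  [Algebra k E1] [Algebra L E] [Algebra L E1] [IsScalarTower k L E] [IsScalarTower k L E1]
  {ρ σ ι : E ≃ₐ[k] E} {ρ1 σ1 ι1 : E1 ≃ₐ[k] E1} {α : E} {α1 : E1} {a b c a1 b1 c1 : kˣ} {q q1 : Lˣ}

/-- The isomorphism of the groups `GTI`. -/
noncomputable def tranGI (φ : ATI ρ σ ι α a b c q ≃* ATI ρ1 σ1 ι1 α1 a1 b1 c1 q1)
    (hφ : ∀ z, kapI (φ z) = kapI z) : GTI ρ σ ι α a b c q ≃* GTI ρ1 σ1 ι1 α1 a1 b1 c1 q1 where
  toFun g := ⟨(φ ⟨g.1, GTI_le_ATI g.2⟩).1, mem_GTI_of_kapI_one (by rw [hφ, kapI_of_GTI g.2])⟩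
  invFun g := ⟨(φ.symm ⟨g.1, GTI_le_ATI g.2⟩).1, mem_GTI_of_kapI_one (by
    rw [← hφ, φ.apply_symm_apply, kapI_of_GTI g.2])⟩
  left_inv g := by
    apply Subtype.ext
    change (φ.symm (φ ⟨g.1, GTI_le_ATI g.2⟩)).1 = g.1
    rw [φ.symm_apply_apply]
  right_inv g := by
    apply Subtype.ext
    change (φ (φ.symm ⟨g.1, GTI_le_ATI g.2⟩)).1 = g.1
    rw [φ.apply_symm_apply]
  map_mul' g h := by
    apply Subtype.ext
    change (φ (⟨g.1, GTI_le_ATI g.2⟩ * ⟨h.1, GTI_le_ATI h.2⟩)).1 = _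
    rw [map_mul]
    rfl

/-- The finite residual is kept. -/
theorem tran_RsI (φ : ATI ρ σ ι α a b c q ≃* ATI ρ1 σ1 ι1 α1 a1 b1 c1 q1) (hφ : ∀ z, kapI (φ z) = kapI z)
    {z : ATI ρ σ ι α a b c q} (h : (φ z).1 ∈ RsI ρ1 σ1 ι1 α1 a1 b1 c1 q1) :
    z.1 ∈ RsI ρ σ ι α a b c q := by
  obtain ⟨h1, h2⟩ := mem_RsI.1 h
  have h3 := fres_map (tranGI φ hφ).symm h2
  have h4 : (((tranGI φ hφ).symm ⟨(φ z).1, h1⟩ : GTI ρ σ ι α a b c q) :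
      OctL E a b c ≃ₗ[E] OctL E a b c) = z.1 := by
    change (φ.symm ⟨(φ z).1, _⟩).1 = z.1
    have h5 : (⟨(φ z).1, GTI_le_ATI h1⟩ : ATI ρ1 σ1 ι1 α1 a1 b1 c1 q1) = φ z := rfl
    rw [h5, φ.symm_apply_apply]
  refine mem_RsI.2 ⟨h4 ▸ ((tranGI φ hφ).symm ⟨(φ z).1, h1⟩).2, ?_⟩
  have h5 : (⟨z.1, h4 ▸ ((tranGI φ hφ).symm ⟨(φ z).1, h1⟩).2⟩ : GTI ρ σ ι α a b c q) =
      (tranGI φ hφ).symm ⟨(φ z).1, h1⟩ := Subtype.ext h4.symm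
  rw [h5]
  exact h3

/-- The finite residual is kept. -/
theorem tran_RsI_iff (φ : ATI ρ σ ι α a b c q ≃* ATI ρ1 σ1 ι1 α1 a1 b1 c1 q1)
    (hφ : ∀ z, kapI (φ z) = kapI z) {z : ATI ρ σ ι α a b c q} :
    (φ z).1 ∈ RsI ρ1 σ1 ι1 α1 a1 b1 c1 q1 ↔ z.1 ∈ RsI ρ σ ι α a b c q := by
  refine ⟨tran_RsI φ hφ, fun h => ?_⟩
  refine tran_RsI φ.symm (fun z => ?_) (z := φ z) ?_
  · rw [← hφ, φ.apply_symm_apply]
  · rw [φ.symm_apply_apply]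
    exact h

end tran

end Vale.Agent.P011.D4I
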